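import Vale.Agent.H4.Diag
import Vale.Agent.H4.Heading
import Vale.Agent.H4.LogHorn
import Vale.Agent.H4.LogQuant
import Vale.Agent.H4.Disk

/-!
# Gaussian moat problem: the results proved here, in one statement

Six statements about Gaussian primes (prime elements of `ℤ[i]`), joined by `∧`.

1. No infinite sequence of Gaussian primes with consecutive distances at most `sqrt 8` has one of
   the four functions `± re ± im` strictly increasing along it.
2. No infinite sequence of Gaussian primes with consecutive distances at most `sqrt 10` has all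
   its steps, viewed as vectors in the complex plane, pairwise at an angle of at most `π / 4`.
3. For every real line `a x + b y = c`, every `B` and every step bound `D`, a sequence of Gaussian
   primes with `|z (n + 1) - z n| ^ 2 ≤ D` that stays in the region
   `dist (z, line) ^ 2 ≤ B + log N / 32`, `N = |z| ^ 2`, takes only finitely many values.
4. Write a line as `x cos θ + y sin θ = c`.  If the steps have length at most `k` and the sequence
   stays in the strip of half-width `B` around the line, then the norms of any two terms differ by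
   a factor of at most `2 ^ (16 K + 8)`, for every natural number
   `K ≥ (B + |c| + 1) ^ 2 + (k + 2) ^ 2`.
5. For every real line `a x + b y = c`, every radius `R` and every position `T` along the line
   there is a point `(x, y)` of the line with `-b x + a y ≥ T` such that every Gaussian prime lies
   at distance greater than `|R|` from `(x, y)`.
6. Write the line as `x cos θ + y sin θ = c` and let `t = -x sin θ + y cos θ` be the position of
   `(x, y)` along it.  For every radius `R ≥ 0`, every `T ≥ 0` and every natural number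
   `K ≥ (R + |c| + 1) ^ 2 + (2 R + 2) ^ 2` there is such a point with
   `T ≤ t ≤ 6 * 256 ^ K * (T + 2)`.

Statements 1 and 2 are the hand-in `A_RestrictedWalks`, statement 3 is `C0_LogWidthRegionAnyLine`,
statement 4 is the second part of `C_StripAnyLineExpBound`, statements 5 and 6 are
`D_PrimeFreeDisksAnyLineExpBound`.
-/

namespace Vale.Agent.Results.P015.A0_CombinedResults

open Vale.Agent.H4

theorem result :
    (¬ ∃ (z : ℕ → GaussianInt) (ε δ : ℤ), (ε = 1 ∨ ε = -1) ∧ (δ = 1 ∨ δ = -1) ∧
      (∀ n, Prime (z n)) ∧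
      (∀ n, Zsqrtd.norm (z (n + 1) - z n) ≤ 8) ∧
      (∀ n, ε * (z n).re + δ * (z n).im < ε * (z (n + 1)).re + δ * (z (n + 1)).im)) ∧
    (¬ ∃ z : ℕ → GaussianInt, (∀ n, Prime (z n)) ∧
      (∀ n, Zsqrtd.norm (z (n + 1) - z n) ≤ 10) ∧
      (∀ m n, InnerProductGeometry.angle (GaussianInt.toComplex (z (m + 1) - z m))
        (GaussianInt.toComplex (z (n + 1) - z n)) ≤ Real.pi / 4)) ∧
    (∀ (z : ℕ → GaussianInt) (D : ℕ) (a b c B : ℝ), (a ≠ 0 ∨ b ≠ 0) →
      (∀ n, Prime (z n)) →
      (∀ n, Zsqrtd.norm (z (n + 1) - z n) ≤ D) →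
      (∀ n, (a * (z n).re + b * (z n).im - c) ^ 2 ≤ (a ^ 2 + b ^ 2) *
        (B + Real.log ((z n).norm) / 32)) →
      (Set.range z).Finite) ∧
    (∀ (z : ℕ → GaussianInt) (k K : ℕ) (θ c B : ℝ),
      (B + |c| + 1) ^ 2 + ((k : ℝ) + 2) ^ 2 ≤ K →
      (∀ n, Prime (z n)) →
      (∀ n, Zsqrtd.norm (z (n + 1) - z n) ≤ (k : ℤ) ^ 2) →
      (∀ n, |Real.cos θ * (z n).re + Real.sin θ * (z n).im - c| ≤ B) →
      ∀ m n, Zsqrtd.norm (z m) ≤ 2 ^ (16 * K + 8) * Zsqrtd.norm (z n)) ∧
    (∀ a b c : ℝ, (a ≠ 0 ∨ b ≠ 0) → ∀ R T : ℝ,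
      ∃ x y : ℝ, a * x + b * y = c ∧ T ≤ -b * x + a * y ∧
        ∀ z : GaussianInt, Prime z →
          R ^ 2 < ((z.re : ℝ) - x) ^ 2 + ((z.im : ℝ) - y) ^ 2) ∧
    (∀ (θ c R T : ℝ) (K : ℕ), 0 ≤ R → 0 ≤ T →
      (R + |c| + 1) ^ 2 + (2 * R + 2) ^ 2 ≤ K →
      ∃ x y : ℝ, Real.cos θ * x + Real.sin θ * y = c ∧
        T ≤ -Real.sin θ * x + Real.cos θ * y ∧
        -Real.sin θ * x + Real.cos θ * y ≤ 6 * (256 : ℝ) ^ K * (T + 2) ∧
        ∀ z : GaussianInt, Prime z →
          R ^ 2 < ((z.re : ℝ) - x) ^ 2 + ((z.im : ℝ) - y) ^ 2) := by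
  refine ⟨diag_walk, ?_, ?_, ?_, ?_, ?_⟩
  · rintro ⟨z, hprime, hlen, hang⟩
    exact heading z hprime hlen hang
  · exact fun z D a b c B hab hprime hstep hhorn =>
      logh_walk_finite z D a b c B hab hprime hstep hhorn
  · exact fun z k K θ c B hK hprime hstep hstrip =>
      pquant_walk_exp z k K (Real.cos θ) (Real.sin θ) c B (Real.cos_sq_add_sin_sq θ) hK
        hprime hstep hstrip
  · exact fun a b c hab R T => prime_free_disk a b c hab R T
  · exact fun θ c R T K hR hT hK =>
      pquant_disk_exp (Real.cos θ) (Real.sin θ) c (Real.cos_sq_add_sin_sq θ) R T hR hT K hK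

end Vale.Agent.Results.P015.A0_CombinedResults
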