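import Vale.Agent.H4.Diag
import Vale.Agent.H4.Heading

/-!
# Gaussian moat problem: two restricted classes of walks, steps at most `sqrt 8` and `sqrt 10`

First part: there is no infinite sequence of Gaussian primes with consecutive distances at most
`sqrt 8` along which one of the four functions `± re ± im` is strictly increasing.

Second part: there is no infinite sequence of Gaussian primes with consecutive distances at most
`sqrt 10` in which any two steps, viewed as vectors in the complex plane, make an angle of at
most `π / 4`.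
-/

namespace Vale.Agent.Results.P015.A_RestrictedWalks

open Vale.Agent.H4

theorem result :
    (¬ ∃ (z : ℕ → GaussianInt) (ε δ : ℤ), (ε = 1 ∨ ε = -1) ∧ (δ = 1 ∨ δ = -1) ∧
      (∀ n, Prime (z n)) ∧
      (∀ n, Zsqrtd.norm (z (n + 1) - z n) ≤ 8) ∧
      (∀ n, ε * (z n).re + δ * (z n).im < ε * (z (n + 1)).re + δ * (z (n + 1)).im)) ∧
    (¬ ∃ z : ℕ → GaussianInt, (∀ n, Prime (z n)) ∧
      (∀ n, Zsqrtd.norm (z (n + 1) - z n) ≤ 10) ∧
      (∀ m n, InnerProductGeometry.angle (GaussianInt.toComplex (z (m + 1) - z m))
        (GaussianInt.toComplex (z (n + 1) - z n)) ≤ Real.pi / 4)) := by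
  refine ⟨diag_walk, ?_⟩
  rintro ⟨z, hprime, hlen, hang⟩
  exact heading z hprime hlen hang

end Vale.Agent.Results.P015.A_RestrictedWalks
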