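import Vale.Agent.H4.LogHorn

/-!
# Gaussian moat problem: walks in a region of logarithmic width around an arbitrary real line

For every real line `a x + b y = c`, every `B` and every step bound `D`, a sequence of Gaussian
primes with `|z (n + 1) - z n| ^ 2 ≤ D` that stays in the region

  `dist (z, line) ^ 2 ≤ B + log N / 32`,   `N = |z| ^ 2`,

takes only finitely many values.  (The square of the distance of `z = x + i y` to the line is
`(a x + b y - c) ^ 2 / (a ^ 2 + b ^ 2)`.)  The width of the region tends to infinity, like the
square root of `log |z|`; a strip of fixed width is the special case in which the logarithmic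
term is dropped.
-/

namespace Vale.Agent.Results.P015.C0_LogWidthRegionAnyLine

open Vale.Agent.H4

theorem result :
    ∀ (z : ℕ → GaussianInt) (D : ℕ) (a b c B : ℝ), (a ≠ 0 ∨ b ≠ 0) →
      (∀ n, Prime (z n)) →
      (∀ n, Zsqrtd.norm (z (n + 1) - z n) ≤ D) →
      (∀ n, (a * (z n).re + b * (z n).im - c) ^ 2 ≤ (a ^ 2 + b ^ 2) *
        (B + Real.log ((z n).norm) / 32)) →
      (Set.range z).Finite :=
  fun z D a b c B hab hprime hstep hhorn =>
    logh_walk_finite z D a b c B hab hprime hstep hhorn

end Vale.Agent.Results.P015.C0_LogWidthRegionAnyLine
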