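import Vale.Agent.H4.LogQuant

/-!
# Gaussian moat problem: walks in a strip around an arbitrary real line, with an explicit bound

(1) For every real line `a x + b y = c`, every width `B` and every step bound `D`, a sequence of
Gaussian primes with `|z (n + 1) - z n| ^ 2 ≤ D` that stays in the strip
`|a x + b y - c| ≤ B` takes only finitely many values.  In particular no infinite sequence of
distinct Gaussian primes with bounded steps stays within bounded distance of a straight line,
whether its slope is rational or irrational.

(2) Explicit form.  Write the line as `x cos θ + y sin θ = c`.  If the steps have length at most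
`k` and the sequence stays in the strip of half-width `B` around the line, then the norms of any
two terms differ by a factor of at most `2 ^ (16 K + 8)`, for every natural number
`K ≥ (B + |c| + 1) ^ 2 + (k + 2) ^ 2`.
-/

namespace Vale.Agent.Results.P015.C_StripAnyLineExpBound

open Vale.Agent.H4

theorem result :
    (∀ (z : ℕ → GaussianInt) (D : ℕ) (a b c B : ℝ), (a ≠ 0 ∨ b ≠ 0) →
      (∀ n, Prime (z n)) →
      (∀ n, Zsqrtd.norm (z (n + 1) - z n) ≤ D) →
      (∀ n, |a * (z n).re + b * (z n).im - c| ≤ B) →
      (Set.range z).Finite) ∧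
    (∀ (z : ℕ → GaussianInt) (k K : ℕ) (θ c B : ℝ),
      (B + |c| + 1) ^ 2 + ((k : ℝ) + 2) ^ 2 ≤ K →
      (∀ n, Prime (z n)) →
      (∀ n, Zsqrtd.norm (z (n + 1) - z n) ≤ (k : ℤ) ^ 2) →
      (∀ n, |Real.cos θ * (z n).re + Real.sin θ * (z n).im - c| ≤ B) →
      ∀ m n, Zsqrtd.norm (z m) ≤ 2 ^ (16 * K + 8) * Zsqrtd.norm (z n)) :=
  ⟨fun z D a b c B hab hprime hstep hstrip =>
      strip_walk_finite z D a b c B hab hprime hstep hstrip,
    fun z k K θ c B hK hprime hstep hstrip =>
      pquant_walk_exp z k K (Real.cos θ) (Real.sin θ) c B (Real.cos_sq_add_sin_sq θ) hK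
        hprime hstep hstrip⟩

end Vale.Agent.Results.P015.C_StripAnyLineExpBound
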