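import Vale.Agent.H4.Disk
import Vale.Agent.H4.LogQuant

/-!
# Gaussian moat problem: prime-free disks centred on an arbitrary real line, at explicit places

(1) For every real line `a x + b y = c`, every radius `R` and every position `T` along the line
there is a point `(x, y)` of the line with `-b x + a y ≥ T` such that every Gaussian prime lies at
distance greater than `|R|` from `(x, y)`.  Replacing `(a, b, c)` by `(-a, -b, -c)` gives the same
line with the opposite orientation, so such disks exist arbitrarily far along the line in both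
directions.

(2) Explicit form.  Write the line as `x cos θ + y sin θ = c` and let `t = -x sin θ + y cos θ`
be the position of `(x, y)` along it.  For every radius `R ≥ 0`, every `T ≥ 0` and every natural
number `K ≥ (R + |c| + 1) ^ 2 + (2 R + 2) ^ 2` there is such a point with
`T ≤ t ≤ 6 * 256 ^ K * (T + 2)`.
-/

namespace Vale.Agent.Results.P015.D_PrimeFreeDisksAnyLineExpBound

open Vale.Agent.H4

theorem result :
    (∀ a b c : ℝ, (a ≠ 0 ∨ b ≠ 0) → ∀ R T : ℝ,
      ∃ x y : ℝ, a * x + b * y = c ∧ T ≤ -b * x + a * y ∧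
        ∀ z : GaussianInt, Prime z →
          R ^ 2 < ((z.re : ℝ) - x) ^ 2 + ((z.im : ℝ) - y) ^ 2) ∧
    (∀ (θ c R T : ℝ) (K : ℕ), 0 ≤ R → 0 ≤ T →
      (R + |c| + 1) ^ 2 + (2 * R + 2) ^ 2 ≤ K →
      ∃ x y : ℝ, Real.cos θ * x + Real.sin θ * y = c ∧
        T ≤ -Real.sin θ * x + Real.cos θ * y ∧
        -Real.sin θ * x + Real.cos θ * y ≤ 6 * (256 : ℝ) ^ K * (T + 2) ∧
        ∀ z : GaussianInt, Prime z →
          R ^ 2 < ((z.re : ℝ) - x) ^ 2 + ((z.im : ℝ) - y) ^ 2) :=
  ⟨fun a b c hab R T => prime_free_disk a b c hab R T,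
    fun θ c R T K hR hT hK =>
      pquant_disk_exp (Real.cos θ) (Real.sin θ) c (Real.cos_sq_add_sin_sq θ) R T hR hT K hK⟩

end Vale.Agent.Results.P015.D_PrimeFreeDisksAnyLineExpBound
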